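import Vale.Agent.P270X.Defs

/-!
# P270X, row EXP: the growth of the intersection numbers
-/

open Finset
open Vale.Agent.P281Z Vale.Agent.P280Z Vale.Agent.P285W.J Vale.Agent.P270F.Tk

namespace Vale.Agent.P270X

theorem bin {T : CT} {n : ℕ} {Z : Mf n} (u l g : T.H Z) (m : ℕ) (x y : ℝ) :
    T.int Z (u * (x • l + y • g) ^ m) = ∑ j ∈ range (m + 1),
      x ^ j * y ^ (m - j) * (m.choose j * T.int Z (u * (l ^ j * g ^ (m - j)))) := by
  rw [add_pow, mul_sum, map_sum]
  refine sum_congr rfl fun j _ => ?_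
  rw [← smul_eq_mul _ (T.int Z _), ← map_smul, ← smul_eq_mul _ (T.int Z _), ← map_smul]
  congr 1
  simp only [Algebra.smul_def, map_mul, map_pow, map_natCast]
  ring

theorem pw_le {x y : ℝ} (hy : 0 < y) (h : y ≤ x) {a b c e : ℕ} (h1 : a ≤ c) (h2 : a + b = c + e) :
    x ^ a * y ^ b ≤ x ^ c * y ^ e := by
  obtain ⟨k, rfl⟩ := Nat.exists_eq_add_of_le h1
  obtain rfl : b = k + e := by omega
  have := hy.trans_le h
  rw [pow_add, pow_add, mul_assoc]
  gcongr

/-- ROW EXP -/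
theorem exp : EXP := by
  intro T hT d ν Z l g w _ hl hν ν0 νd hg hd hw
  obtain ⟨a, ha, -⟩ := id hd
  obtain ⟨r, -, hr⟩ := kc_sub hT ha hw.1 hw.2
  have van : ∀ j k, ν < j → T.int Z (w * (l ^ j * g ^ k)) = 0 := fun j k h => by
    obtain ⟨i, rfl⟩ := Nat.exists_eq_add_of_lt h
    have m := (hl.mn.pow i).mul (hg.mn.pow k)
    have h1 := hν.2 _ ((kc_nf hT ha).mn.mul m)
    have h2 := hν.2 _ ((kc_nf hT hr).mn.mul m)
    rw [sub_mul, mul_sub, smul_mul_assoc, mul_smul_comm, map_sub, map_smul, h1, smul_zero,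
      zero_sub, neg_eq_zero] at h2
    rw [← h2]
    congr 1
    ring
  have δ0 := pos_dm hT hg hd (hl.mn.pow ν) (dg_pow hT (nf_dg hT hl) ν) (j := d + 1 - ν)
    (by omega) hν.1
  set δ := T.int Z (l ^ ν * g ^ (d + 1 - ν)) with hδ
  set S := ∑ j ∈ range (d + 1), |d.choose j * T.int Z (w * (l ^ j * g ^ (d - j)))| with hS
  have S0 : 0 ≤ S := sum_nonneg fun _ _ => abs_nonneg _
  refine ⟨S / δ, by positivity, fun x y y0 yx => ?_⟩
  have x0 := y0.trans_le yx
  have lo : x ^ ν * y ^ (d + 1 - ν) * δ ≤ T.int Z ((x • l + y • g) ^ (d + 1)) := by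
    rw [← one_mul (_ ^ (d + 1)), bin]
    refine le_trans ?_ (single_le_sum (a := ν) (fun j _ => mul_nonneg (by positivity)
      (mul_nonneg (Nat.cast_nonneg _) ?_)) (mem_range.2 (by omega)))
    · rw [one_mul]
      have : (1 : ℝ) ≤ (d + 1).choose ν := by exact_mod_cast Nat.choose_pos (by omega)
      gcongr
      exact le_mul_of_one_le_left δ0.le this
    · rw [one_mul]
      exact mn_int hT ((hl.mn.pow _).mul (hg.mn.pow _))
  have key : ∀ t : ℝ, 0 ≤ t → (∀ j ≤ ν, 0 < T.int Z (w * (l ^ j * g ^ (d - j))) →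
      t * (x ^ j * y ^ (d - j)) ≤ x ^ ν * y ^ (d + 1 - ν)) →
      t * T.int Z (w * (x • l + y • g) ^ d) ≤ S / δ * T.int Z ((x • l + y • g) ^ (d + 1)) := by
    intro t t0 h
    refine le_trans ?_ (mul_le_mul_of_nonneg_left lo (by positivity))
    rw [bin, mul_sum, mul_comm (S / δ), mul_assoc, mul_div_cancel₀ _ δ0.ne', hS, mul_sum]
    refine sum_le_sum fun j _ => ?_
    rw [← mul_assoc]
    by_cases k : 0 < T.int Z (w * (l ^ j * g ^ (d - j)))
    · exact mul_le_mul (h j (not_lt.1 fun c => k.ne' (van _ _ c)) k) (le_abs_self _)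
        (by positivity) (by positivity)
    · exact (mul_nonpos_of_nonneg_of_nonpos (by positivity) (mul_nonpos_of_nonneg_of_nonpos
        (Nat.cast_nonneg _) (not_lt.1 k))).trans (by positivity)
  refine ⟨lt_of_lt_of_le (by positivity) lo, key y y0.le fun j hj _ => ?_,
    fun h => key x x0.le fun j hj k => ?_⟩
  · rw [mul_left_comm, ← pow_succ']
    exact pw_le y0 yx hj (by omega)
  · have : j ≠ ν := fun e => k.not_ge (e ▸ h)
    rw [← mul_assoc, ← pow_succ']
    exact pw_le y0 yx (by omega) (by omega)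

end Vale.Agent.P270X
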