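import Vale.Agent.P270X.Top
import Vale.Agent.P270X.Nlx
import Vale.Agent.P270X.Sta
import Vale.Agent.P270X.Exp
import Vale.Agent.P270X.Sin
import Vale.Agent.P270X.Kun
import Vale.Agent.P270Z.Top
import Vale.Agent.P285J.Mmp

/-!
# P270X: the intermediate case does not occur
-/

open Vale.Agent.P285S.Mm.Ps (NVS)
open Vale.Agent.P285M.Ms (LCB)

namespace Vale.Agent.P270X

theorem dnn (nv : ∀ d, NVS d) (lc : ∀ d, LCB d) (d : ℕ) : DNN d :=
  dnn_of nlx (sta_of exp sin) (kun_of exp sin)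
    (fun e => mmn (P270Z.sa_all nv _) e (P285J.mmt fun d _ => lc d)) d

theorem nor (nv : ∀ d, NVS d) (lc : ∀ d, LCB d) (d : ℕ) : P270Q.NOR d := nor_of (dnn nv lc d)

end Vale.Agent.P270X
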