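import Vale.Agent.P285J.Caa
import Vale.Agent.P285J.CaRs1
import Vale.Agent.P285J.CaRs2
import Vale.Agent.P285J.CaBas
import Vale.Agent.P285J.CaFgl
import Vale.Agent.P285J.CaFgv
import Vale.Agent.P285J.CaStp
import Vale.Agent.P285J.CaPsf
import Vale.Agent.P285J.CaSnl
import Vale.Agent.P285J.CaNeat
import Vale.Agent.P285J.CaVrt
import Vale.Agent.P285J.CaHor
import Vale.Agent.P285R.Top
import Vale.Agent.P285R.Fgka
import Vale.Agent.P285O.Fkn
import Vale.Agent.P285Y.Cba
import Vale.Agent.P285X.Fin2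
import Vale.Agent.P270L.Fin

/-!
# P270: the generalised abundance conjecture, assembly
-/

namespace Vale.Agent.P270X

open P285J.Ca in
theorem caa : P285R.CAA :=
  caa_of rs1 (nrm_of s1u neat hor fv hp snl secv) rs2 bas fin (stp_of psf npl (fgv_of fgl)) dsf asc
    gmfo

open P285X in
theorem all (n : ℕ) : P285M.Ms.LCB n ∧ P285S.Mm.Ps.NVS n :=
  P285R.all_of P285O.fkea P285R.fgka caa P285Y.cba ajc jeta2 vba eba sta tta2 n

theorem genAb (k : Type) [Field k] [IsAlgClosed k] [CharZero k] : P270L.GenAbundance k :=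
  P270L.genAb (fun d => (all d).2) (fun d => (all d).1) k

end Vale.Agent.P270X
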