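import Vale.Agent.P270X.Defs
import Vale.Agent.P270G.All
import Vale.Agent.P270G.Mach43

/-!
# P270X, row DQN: the pairs above all the divisors
-/

open Set
open Vale.Agent.P272.K Vale.Agent.P285.H281.FD Vale.Agent.P281Z Vale.Agent.P280Z
open Vale.Agent.P277.HD (pull)
open Vale.Agent.P285W.J Vale.Agent.P285W.Bs
open Vale.Agent.P270G Vale.Agent.P270G.M43

namespace Vale.Agent.P270X

theorem dqn : DQN := by
  intro d T hT κ ι _ A m N L Λ ν hν h D s lD sD nz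
  obtain ⟨κ', _, A', m', π, S, hπ, c, k1, k2⟩ := up _ T hT κ ι A m N D s h.cw lD sD nz
  obtain ⟨k, k0, fb⟩ := fbu _ A.Z A'.Z π S Λ c.ok.conn c.ok.prj hπ h.fb
  have o := h.cw.ok
  have nl := nf_of hT o.prj h.lb h.nef
  have e := hT.c1.pull hπ.hol L h.lb
  have ez : zz T A'.Z (pull π L) ((pull π Λ).pow k) ν =
      (k : ℝ) ^ (d - ν) • T.pull hπ.hol (zz T A.Z L Λ ν) := by
    rw [zz, e, hT.c1.pow _ _ k (hπ.hol.lb h.fb.lb), hT.c1.pull hπ.hol Λ h.fb.lb, smul_pow,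
      mul_smul_comm, map_mul, map_pow, map_pow]
  refine ⟨κ', ι, inferInstance, A', m', N, π, S, _, hπ, ((k : ℝ) • T.c1 A.Z Λ) ^ (d - ν),
    ⟨c, hπ.hol.lb h.lb, tp_of_nf hT (hπ.hol.lb h.lb) (e ▸ nf_pull hT hπ.hol nl),
    e ▸ nuu.nu T hT _ _ _ _ π S hπ _ ⟨o.conn, o.prj⟩ c.ok.prj nl h.nu, fb,
    fun l hl O σ hO => ?_⟩, k1,
    (nf_smul hT k.cast_nonneg (bf_nf hT ⟨Λ, h.fb.lb, h.fb.bpf, rfl⟩)).mn.pow _, ?_⟩
  · rw [← zz, ez, mul_smul_comm, map_smul, nzu d T hT κ ι A m N A'.Z π S hπ _ O σ o c.ok.prj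
      (zz_mn hT h hν).1 (zz_mn hT h hν).2 hO.lb hO.sec (dense_div hO) fun y hy =>
        (k2 l hl y (not_not.1 fun k => hy fun a ha => mt (hO.leq a y ha).mem.1 k)).imp_right
          fun ⟨j, j1, j2⟩ => ⟨j, h.neg j j1, j2⟩, smul_zero]
  · rw [ez, smul_pow, mul_smul_comm, map_smul]

end Vale.Agent.P270X
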