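import Vale.Agent.P270X.Defs
import Vale.Agent.P270Z.Frmn

/-!
# P270X: the row FRN
-/

namespace Vale.Agent.P270X

/-- row FRN -/
theorem frn : FRN := by
  intro d ih T hT κ ι _ A m N hF L Λ ν h0 hν h hN k
  obtain ⟨ν, rfl⟩ : ∃ e, ν = e + 1 := ⟨ν - 1, by omega⟩
  obtain ⟨κ', ι', _, B, m', N', L', Λ', k1, k2⟩ :=
    P270Z.fyt d T hT κ ι A m N L Λ ν (by omega) h hN k
  exact ih T hT κ' ι' B m' N' hF L' Λ' ν (by omega) k1 k2

end Vale.Agent.P270X
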