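import Vale.Agent.P270X.Defs
import Vale.Agent.P270Z.Mm1

/-!
# P270X: the row MMN
-/

namespace Vale.Agent.P270X

/-- row MMN -/
theorem mmn : MMN := fun hS _ hM =>
  P270Z.mm1 (fun d κ ι _ A m N h hQ => hS d κ ι A m N h hQ.2) hM

end Vale.Agent.P270X
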